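import Vale.Agent.P064.Defs

/-!
Copies of a graph, the expectation thresholds of Kahn-Kalai and Talagrand, rainbow copies.
-/

namespace Vale.Agent.P064.H825

open SimpleGraph MeasureTheory

/-- The copies of `H` in the complete graph on `Fin n`: the graphs on `Fin n` obtained from `H`
by an injection of its vertices. -/
def copies {W : Type*} (n : ℕ) (H : SimpleGraph W) : Set (SimpleGraph (Fin n)) :=
  {K | ∃ f : W ↪ Fin n, K = H.map f}

/-- The graphs on `Fin n` which contain a copy of `H`. -/
def containing {W : Type*} (n : ℕ) (H : SimpleGraph W) : Set (SimpleGraph (Fin n)) :=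
  {G | 0 < G.copyCount H}

open Classical in
/-- The expectation threshold `q(F)` of Kahn and Kalai: the largest `q` in `[0,1]` such that some
family `U` of graphs, of which every member of `F` contains one, has `∑ q ^ e(S) ≤ 1/2`. -/
noncomputable def expThreshold {n : ℕ} (F : Set (SimpleGraph (Fin n))) : ℝ :=
  sSup {q : ℝ | 0 ≤ q ∧ q ≤ 1 ∧ ∃ U : Finset (SimpleGraph (Fin n)),
    (∀ K ∈ F, ∃ S ∈ U, S ≤ K) ∧ ∑ S ∈ U, q ^ S.edgeSet.ncard ≤ 1 / 2}

open Classical in
/-- The fractional expectation threshold `q_f(F)` of Talagrand: weights instead of a family. -/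
noncomputable def fracExpThreshold {n : ℕ} (F : Set (SimpleGraph (Fin n))) : ℝ :=
  sSup {q : ℝ | 0 ≤ q ∧ q ≤ 1 ∧ ∃ w : SimpleGraph (Fin n) → ℝ, (∀ S, 0 ≤ w S) ∧
    (∀ K ∈ F, 1 ≤ ∑ S, if S ≤ K then w S else 0) ∧ ∑ S, w S * q ^ S.edgeSet.ncard ≤ 1 / 2}

/-- The probability that `G(n,p)` contains a member of the set `A` of graphs. -/
noncomputable def probMember {n : ℕ} (A : Set (SimpleGraph (Fin n))) (p : unitInterval) : ℝ :=
  (binomialRandom (Fin n) p).real {G | ∃ K ∈ A, K ≤ G}

/-- The probability that `G(n,p)`, its edges coloured independently and uniformly with `k`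
colours, contains a copy of `H` whose edges have different colours. -/
noncomputable def probRainbow {W : Type*} (n k : ℕ) (H : SimpleGraph W) (p : unitInterval) : ℝ :=
  ∫ G, ({c : Sym2 (Fin n) → Fin k | ∃ K ∈ copies n H, K ≤ G ∧ Set.InjOn c K.edgeSet}.ncard : ℝ) /
    (k : ℝ) ^ Fintype.card (Sym2 (Fin n)) ∂(binomialRandom (Fin n) p)

end Vale.Agent.P064.H825
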