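import Vale.Agent.P064.Bdl.B1

/-!
P064 (helper825): the fragment argument (Park-Pham) for an arbitrary family of sets carrying a
spread measure. `cost p H` is the least value of `∑ T ∈ G, p ^ |T|` over all covers `G` of the
family `H`.
-/

set_option linter.all false

namespace Vale.Agent.P064.H825

open Finset Vale.Agent.P064 Vale.Agent.P064.Multi

variable {X : Type*} [Fintype X] [DecidableEq X]

/-- `G` covers `H`: every member of `H` contains a member of `G`. -/
def Cov (G H : Finset (Finset X)) : Prop := ∀ S ∈ H, ∃ T ∈ G, T ⊆ S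

instance (H : Finset (Finset X)) : Nonempty {G : Finset (Finset X) // Cov G H} :=
  ⟨⟨H, fun S hS => ⟨S, hS, Subset.rfl⟩⟩⟩

/-- least cost of a cover -/
noncomputable def cost (p : ℝ) (H : Finset (Finset X)) : ℝ :=
  ⨅ G : {G : Finset (Finset X) // Cov G H}, ∑ T ∈ G.1, p ^ T.card

theorem cost_le {p : ℝ} {G H : Finset (Finset X)} (h : Cov G H) :
    cost p H ≤ ∑ T ∈ G, p ^ T.card := by
  have hf : (Set.range fun G : {G : Finset (Finset X) // Cov G H} =>
      ∑ T ∈ G.1, p ^ T.card).Finite := Set.finite_range _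
  exact ciInf_le hf.bddBelow ⟨G, h⟩

theorem exists_cost (p : ℝ) (H : Finset (Finset X)) :
    ∃ G, Cov G H ∧ ∑ T ∈ G, p ^ T.card = cost p H := by
  obtain ⟨G, hG⟩ := exists_eq_ciInf_of_finite
    (f := fun G : {G : Finset (Finset X) // Cov G H} => ∑ T ∈ G.1, p ^ T.card)
  exact ⟨G.1, G.2, hG⟩

theorem le_cost {p a : ℝ} {H : Finset (Finset X)}
    (h : ∀ G, Cov G H → a ≤ ∑ T ∈ G, p ^ T.card) : a ≤ cost p H := by
  obtain ⟨G, hG, e⟩ := exists_cost p H
  rw [← e]
  exact h G hG

/-! ### minimal fragments -/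

theorem exists_mf (H : Finset (Finset X)) (W S : Finset X) (hS : S ∈ H) :
    ∃ T, (∃ S' ∈ H, S' ⊆ W ∪ S ∧ T = S' \ W) ∧
      ∀ S'' ∈ H, S'' ⊆ W ∪ S → T.card ≤ (S'' \ W).card := by
  classical
  have hne : (H.filter fun S' => S' ⊆ W ∪ S).Nonempty :=
    ⟨S, mem_filter.2 ⟨hS, subset_union_right⟩⟩
  obtain ⟨S', hS', hmin⟩ := Finset.exists_min_image _ (fun S' : Finset X => (S' \ W).card) hne
  rw [mem_filter] at hS'
  exact ⟨S' \ W, ⟨S', hS'.1, hS'.2, rfl⟩, fun S'' h1 h2 => hmin S'' (mem_filter.2 ⟨h1, h2⟩)⟩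

open Classical in
/-- a minimal fragment of `S` outside `W` -/
noncomputable def mf (H : Finset (Finset X)) (W S : Finset X) : Finset X :=
  if h : S ∈ H then (exists_mf H W S h).choose else ∅

theorem mf_spec {H : Finset (Finset X)} (W : Finset X) {S : Finset X} (hS : S ∈ H) :
    (∃ S' ∈ H, S' ⊆ W ∪ S ∧ mf H W S = S' \ W) ∧
      ∀ S'' ∈ H, S'' ⊆ W ∪ S → (mf H W S).card ≤ (S'' \ W).card := by
  unfold mf
  rw [dif_pos hS]
  exact (exists_mf H W S hS).choose_spec

theorem mf_subset {H : Finset (Finset X)} (W : Finset X) {S : Finset X} (hS : S ∈ H) :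
    mf H W S ⊆ S := by
  obtain ⟨S', _, h2, h3⟩ := (mf_spec W hS).1
  rw [h3]
  intro x hx
  rw [mem_sdiff] at hx
  rcases mem_union.1 (h2 hx.1) with h | h
  · exact absurd h hx.2
  · exact h

/-- all minimal fragments -/
noncomputable def frs (H : Finset (Finset X)) (W : Finset X) : Finset (Finset X) :=
  H.image (mf H W)

/-- the small minimal fragments -/
noncomputable def fr (s : ℕ) (H : Finset (Finset X)) (W : Finset X) : Finset (Finset X) :=
  (frs H W).filter fun T => T.card ≤ s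

/-- a member of `H` inside `Z`, if there is one -/
theorem frs_key {H : Finset (Finset X)} {W T S'' : Finset X} (hT : T ∈ frs H W)
    (hS : S'' ∈ H) (hsub : S'' ⊆ W ∪ T) : T ⊆ S'' := by
  obtain ⟨S, hSH, rfl⟩ := mem_image.1 hT
  have h1 : S'' \ W ⊆ mf H W S := by
    intro x hx
    rw [mem_sdiff] at hx
    rcases mem_union.1 (hsub hx.1) with h | h
    · exact absurd h hx.2
    · exact h
  have h2 : S'' ⊆ W ∪ S := hsub.trans (union_subset_union_right (mf_subset W hSH))
  have h3 := (mf_spec W hSH).2 S'' hS h2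
  have h4 := Finset.eq_of_subset_of_card_le h1 h3
  rw [← h4]
  exact sdiff_subset

theorem frs_mem {H : Finset (Finset X)} {W T : Finset X} (hT : T ∈ frs H W) :
    ∃ S' ∈ H, S' ⊆ W ∪ T ∧ T = S' \ W := by
  obtain ⟨S, hSH, rfl⟩ := mem_image.1 hT
  obtain ⟨S', h1, h2, h3⟩ := (mf_spec W hSH).1
  refine ⟨S', h1, ?_, h3⟩
  rw [h3]
  intro x hx
  by_cases hxW : x ∈ W
  · exact mem_union_left _ hxW
  · exact mem_union_right _ (mem_sdiff.2 ⟨hx, hxW⟩)

open Classical in
/-- counting the fragments of size `t` -/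
theorem count_big {H : Finset (Finset X)} {ℓ : ℕ} (hℓ : ∀ S ∈ H, S.card ≤ ℓ) {w : ℝ}
    (hw0 : 0 < w) (hw1 : w ≤ 1) (t : ℕ) :
    ES w univ (fun W => (((frs H W).filter fun T => T.card = t).card : ℝ)) ≤
      (ℓ.choose t : ℝ) * (1 / w) ^ t := by
  set chi : Finset X → Finset X := fun Z => if h : ∃ S ∈ H, S ⊆ Z then h.choose else ∅ with hchi
  have hchi_mem : ∀ Z, (∃ S ∈ H, S ⊆ Z) → chi Z ∈ H ∧ chi Z ⊆ Z := by
    intro Z h
    rw [hchi]
    simp only
    rw [dif_pos h]
    exact h.choose_spec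
  have hchi_card : ∀ Z, (chi Z).card ≤ ℓ := by
    intro Z
    by_cases h : ∃ S ∈ H, S ⊆ Z
    · exact hℓ _ (hchi_mem Z h).1
    · rw [hchi]
      simp only
      rw [dif_neg h]
      simp
  set g : Finset X → Finset X → ℝ := fun T Z => if T ⊆ chi Z then 1 else 0 with hg
  -- the number of fragments of size `t` as a sum
  have h1 : ∀ W : Finset X, (((frs H W).filter fun T => T.card = t).card : ℝ) =
      ∑ T ∈ univ.powersetCard t, if T ∈ frs H W then (1 : ℝ) else 0 := by
    intro W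
    rw [← Finset.sum_filter, Finset.sum_const, nsmul_eq_mul, mul_one]
    congr 2
    ext T
    simp only [mem_filter, mem_powersetCard, subset_univ, true_and]
    tauto
  have h2 : ∀ T ∈ (univ : Finset X).powersetCard t,
      ES w univ (fun W => if T ∈ frs H W then (1 : ℝ) else 0) ≤
        (1 / w) ^ t * ES w univ (fun Z => g T Z) := by
    intro T hT
    have hTc : T.card = t := (mem_powersetCard.1 hT).2
    have h3 : ES w univ (fun W => if T ∈ frs H W then (1 : ℝ) else 0) ≤
        ES w univ (fun W => g T (W ∪ T)) := by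
      refine ES_mono hw0.le hw1 _ fun W _ => ?_
      rw [hg]
      simp only
      split_ifs with a b b
      · exact le_rfl
      · exfalso
        apply b
        obtain ⟨S', h5, h6, _⟩ := frs_mem a
        obtain ⟨h7, h8⟩ := hchi_mem (W ∪ T) ⟨S', h5, h6⟩
        exact frs_key a h7 h8
      · exact zero_le_one
      · exact le_rfl
    have h4 := ES_plant w (S := univ) T (subset_univ T) (g T)
    rw [hTc] at h4
    have h5 : ES w univ (fun W => if T ⊆ W then g T W else 0) ≤ ES w univ (fun Z => g T Z) := by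
      refine ES_mono hw0.le hw1 _ fun W _ => ?_
      have : 0 ≤ g T W := by
        rw [hg]
        simp only
        split_ifs <;> norm_num
      split_ifs
      · exact le_rfl
      · exact this
    have h6 : 0 < w ^ t := pow_pos hw0 t
    rw [div_pow, one_pow, one_div, inv_mul_eq_div, le_div_iff₀ h6]
    calc ES w univ (fun W => if T ∈ frs H W then (1 : ℝ) else 0) * w ^ t
        ≤ ES w univ (fun W => g T (W ∪ T)) * w ^ t := mul_le_mul_of_nonneg_right h3 h6.le
      _ = w ^ t * ES w univ (fun W => g T (W ∪ T)) := mul_comm _ _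
      _ ≤ _ := by rw [h4]; exact h5
  have h7 : ∀ Z : Finset X, ∑ T ∈ univ.powersetCard t, g T Z ≤ (ℓ.choose t : ℝ) := by
    intro Z
    rw [hg]
    simp only
    rw [← Finset.sum_filter, Finset.sum_const, nsmul_eq_mul, mul_one]
    have h8 : ((univ : Finset X).powersetCard t).filter (fun T => T ⊆ chi Z) =
        (chi Z).powersetCard t := by
      ext T
      simp only [mem_filter, mem_powersetCard, subset_univ, true_and]
      tauto
    rw [h8, Finset.card_powersetCard]
    exact_mod_cast Nat.choose_le_choose t (hchi_card Z)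
  calc ES w univ (fun W => (((frs H W).filter fun T => T.card = t).card : ℝ))
      = ES w univ (fun W => ∑ T ∈ univ.powersetCard t, if T ∈ frs H W then (1 : ℝ) else 0) :=
        ES_congr _ _ fun W _ => h1 W
    _ = ∑ T ∈ univ.powersetCard t, ES w univ (fun W => if T ∈ frs H W then (1 : ℝ) else 0) :=
        ES_sum _ _ _ _
    _ ≤ ∑ T ∈ univ.powersetCard t, (1 / w) ^ t * ES w univ (fun Z => g T Z) :=
        Finset.sum_le_sum h2
    _ = (1 / w) ^ t * ES w univ (fun Z => ∑ T ∈ univ.powersetCard t, g T Z) := by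
        rw [← Finset.mul_sum, ES_sum]
    _ ≤ (1 / w) ^ t * ES w univ (fun _ => (ℓ.choose t : ℝ)) := by
        refine mul_le_mul_of_nonneg_left (ES_mono hw0.le hw1 _ fun Z _ => h7 Z) (by positivity)
    _ = _ := by rw [ES_const]; ring

/-- pointwise: the cost decreases by at most the cost of the big fragments -/
theorem cost_step {H : Finset (Finset X)} {ℓ : ℕ} (hℓ : ∀ S ∈ H, S.card ≤ ℓ) {p : ℝ}
    (hp : 0 ≤ p) (s : ℕ) (W : Finset X) :
    cost p H ≤ cost p (fr s H W) +
      ∑ t ∈ Ioc s ℓ, (((frs H W).filter fun T => T.card = t).card : ℝ) * p ^ t := by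
  classical
  obtain ⟨G, hG, e⟩ := exists_cost p (fr s H W)
  have hc : Cov (G ∪ (frs H W).filter fun T => s < T.card) H := by
    intro S hS
    have h1 : mf H W S ∈ frs H W := mem_image_of_mem _ hS
    by_cases h : (mf H W S).card ≤ s
    · obtain ⟨T, hT, hTS⟩ := hG (mf H W S) (mem_filter.2 ⟨h1, h⟩)
      exact ⟨T, mem_union_left _ hT, hTS.trans (mf_subset W hS)⟩
    · exact ⟨_, mem_union_right _ (mem_filter.2 ⟨h1, not_le.1 h⟩), mf_subset W hS⟩
  have h2 : ∑ T ∈ (frs H W).filter (fun T => s < T.card), p ^ T.card =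
      ∑ t ∈ Ioc s ℓ, (((frs H W).filter fun T => T.card = t).card : ℝ) * p ^ t := by
    have hmap : ∀ T ∈ (frs H W).filter (fun T => s < T.card), T.card ∈ Ioc s ℓ := by
      intro T hT
      rw [mem_filter] at hT
      obtain ⟨S, hS, rfl⟩ := mem_image.1 hT.1
      exact mem_Ioc.2 ⟨hT.2, (card_le_card (mf_subset W hS)).trans (hℓ S hS)⟩
    rw [← Finset.sum_fiberwise_of_maps_to hmap]
    refine Finset.sum_congr rfl fun t ht => ?_
    rw [mem_Ioc] at ht
    have h3 : ((frs H W).filter (fun T => s < T.card)).filter (fun T => T.card = t) =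
        (frs H W).filter fun T => T.card = t := by
      ext T
      simp only [mem_filter]
      constructor
      · rintro ⟨⟨a, _⟩, c⟩
        exact ⟨a, c⟩
      · rintro ⟨a, c⟩
        exact ⟨⟨a, c ▸ ht.1⟩, c⟩
    rw [h3, Finset.sum_congr rfl (g := fun _ => p ^ t) (fun T hT => by
      rw [(mem_filter.1 hT).2]), Finset.sum_const, nsmul_eq_mul]
  calc cost p H ≤ ∑ T ∈ G ∪ (frs H W).filter (fun T => s < T.card), p ^ T.card := cost_le hc
    _ ≤ ∑ T ∈ G, p ^ T.card + ∑ T ∈ (frs H W).filter (fun T => s < T.card), p ^ T.card := by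
        rw [← Finset.sum_union_inter]
        exact le_add_of_nonneg_right (Finset.sum_nonneg fun T _ => pow_nonneg hp _)
    _ = _ := by rw [e, h2]

open Classical in
/-- indicator that `W` contains a member of `H` -/
noncomputable def hitF (H : Finset (Finset X)) (W : Finset X) : ℝ :=
  if ∃ S ∈ H, S ⊆ W then 1 else 0

theorem hitF_mono (H : Finset (Finset X)) (W Z : Finset X) : hitF H W ≤ hitF H (W ∪ Z) := by
  unfold hitF
  split_ifs with a b b
  · exact le_rfl
  · exfalso
    obtain ⟨S, hS, h⟩ := a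
    exact b ⟨S, hS, h.trans subset_union_left⟩
  · exact zero_le_one
  · exact le_rfl

/-- error of one round -/
theorem err_le {ε r : ℝ} (hε : 0 ≤ ε) (hε1 : ε ≤ 1) (hr0 : 0 ≤ r) (hr : r ≤ ε / 64) (ℓ : ℕ) :
    ∑ t ∈ Ioc (ℓ / 2) ℓ, (ℓ.choose t : ℝ) * r ^ t ≤
      ε / 16 * ((1 / 2) ^ (ℓ / 2) - (1 / 2) ^ ℓ) := by
  rcases Nat.eq_zero_or_pos ℓ with h0 | h0
  · subst h0
    simp
  have hr1 : r ≤ 1 := by linarith
  set h := ℓ / 2 with hh
  have h1 : h + 1 ≤ ℓ := by omega
  have h2 : ℓ ≤ 2 * h + 1 := by omega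
  have h3 : ∑ t ∈ Ioc h ℓ, (ℓ.choose t : ℝ) * r ^ t ≤
      ∑ t ∈ Ioc h ℓ, (ℓ.choose t : ℝ) * r ^ (h + 1) := by
    refine Finset.sum_le_sum fun t ht => ?_
    rw [mem_Ioc] at ht
    exact mul_le_mul_of_nonneg_left (pow_le_pow_of_le_one hr0 hr1 ht.1) (Nat.cast_nonneg _)
  have h4 : ∑ t ∈ Ioc h ℓ, (ℓ.choose t : ℝ) ≤ 2 ^ ℓ := by
    have h5 : ∑ t ∈ Ioc h ℓ, ℓ.choose t ≤ ∑ t ∈ range (ℓ + 1), ℓ.choose t := by
      refine Finset.sum_le_sum_of_subset fun t ht => ?_
      rw [mem_Ioc] at ht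
      exact mem_range.2 (by omega)
    rw [Nat.sum_range_choose] at h5
    exact_mod_cast h5
  have h5 : (2 : ℝ) ^ ℓ ≤ 2 * 4 ^ h := by
    calc (2 : ℝ) ^ ℓ ≤ 2 ^ (2 * h + 1) := pow_le_pow_right₀ (by norm_num) h2
      _ = 2 * 4 ^ h := by rw [pow_succ, pow_mul]; norm_num; ring
  have h6 : r ^ (h + 1) ≤ ε / 64 * (1 / 64) ^ h := by
    rw [pow_succ, mul_comm]
    refine mul_le_mul hr (pow_le_pow_left₀ hr0 (hr.trans (by linarith)) h) (by positivity)
      (by positivity)
  have h7 : (1 / 2 : ℝ) ^ ℓ ≤ 1 / 2 * (1 / 2) ^ h := by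
    calc (1 / 2 : ℝ) ^ ℓ ≤ (1 / 2) ^ (h + 1) :=
          pow_le_pow_of_le_one (by norm_num) (by norm_num) h1
      _ = 1 / 2 * (1 / 2) ^ h := by rw [pow_succ]; ring
  have h8 : (1 / 16 : ℝ) ^ h ≤ (1 / 2) ^ h :=
    pow_le_pow_left₀ (by norm_num) (by norm_num) h
  calc ∑ t ∈ Ioc h ℓ, (ℓ.choose t : ℝ) * r ^ t
      ≤ (∑ t ∈ Ioc h ℓ, (ℓ.choose t : ℝ)) * r ^ (h + 1) := by
        rw [Finset.sum_mul]; exact h3
    _ ≤ (2 * 4 ^ h) * (ε / 64 * (1 / 64) ^ h) :=
        mul_le_mul (h4.trans h5) h6 (by positivity) (by positivity)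
    _ = ε / 32 * (1 / 16) ^ h := by
        rw [show (1 / 64 : ℝ) ^ h = (1 / 16) ^ h * (1 / 4) ^ h by
          rw [← mul_pow]; norm_num]
        have : (4 : ℝ) ^ h * (1 / 4) ^ h = 1 := by rw [← mul_pow]; norm_num
        calc 2 * (4 : ℝ) ^ h * (ε / 64 * ((1 / 16) ^ h * (1 / 4) ^ h))
            = ε / 32 * (1 / 16) ^ h * (4 ^ h * (1 / 4) ^ h) := by ring
          _ = _ := by rw [this]; ring
    _ ≤ ε / 32 * (1 / 2) ^ h := mul_le_mul_of_nonneg_left h8 (by positivity)
    _ ≤ ε / 16 * ((1 / 2) ^ h - (1 / 2) ^ ℓ) := by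
        have : 0 ≤ ε * ((1 / 2 : ℝ) ^ h) := by positivity
        nlinarith

/-- **the iteration** -/
theorem iter {p w ε : ℝ} (hp : 0 < p) (hε : 0 < ε) (hε1 : ε ≤ 1) (hpw : 64 * p ≤ ε * w)
    (hw1 : w ≤ 1) : ∀ (k ℓ : ℕ) (H : Finset (Finset X)), ℓ < 2 ^ k → (∀ S ∈ H, S.card ≤ ℓ) →
    cost p H ≤ ES (1 - (1 - w) ^ k) univ (hitF H) + ε / 16 * (1 - (1 / 2) ^ ℓ) := by
  have hw0 : 0 < w := by
    by_contra hcon
    have : ε * w ≤ 0 := mul_nonpos_of_nonneg_of_nonpos hε.le (not_lt.1 hcon)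
    linarith
  have hr0 : 0 ≤ p / w := by positivity
  have hr : p / w ≤ ε / 64 := by
    rw [div_le_div_iff₀ hw0 (by norm_num)]
    linarith
  intro k
  induction k with
  | zero =>
    intro ℓ H hk hH
    have hℓ0 : ℓ = 0 := by simpa using hk
    subst hℓ0
    simp only [pow_zero, sub_self, mul_zero, add_zero]
    by_cases he : (∅ : Finset X) ∈ H
    · have h1 : cost p H ≤ 1 := by
        have : Cov {∅} H := fun S _ => ⟨∅, mem_singleton_self _, empty_subset _⟩
        simpa using cost_le (p := p) this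
      have h2 : ES (0 : ℝ) univ (hitF H) = 1 := by
        rw [ES_congr _ _ (g := fun _ => 1), ES_const]
        intro W _
        unfold hitF
        rw [if_pos ⟨∅, he, empty_subset _⟩]
      rw [h2]
      exact h1
    · have h3 : H = ∅ := by
        rw [Finset.eq_empty_iff_forall_notMem]
        intro S hS
        have := hH S hS
        rw [Nat.le_zero, Finset.card_eq_zero] at this
        exact he (this ▸ hS)
      subst h3
      have h1 : cost p (∅ : Finset (Finset X)) ≤ 0 := by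
        have : Cov (∅ : Finset (Finset X)) ∅ := fun S hS => absurd hS (notMem_empty S)
        simpa using cost_le (p := p) this
      refine h1.trans ?_
      have h4 : ES (0 : ℝ) univ (fun _ : Finset X => (0 : ℝ)) ≤
          ES (0 : ℝ) univ (hitF (∅ : Finset (Finset X))) :=
        ES_mono le_rfl zero_le_one _ fun W _ => by
          unfold hitF
          split_ifs <;> norm_num
      rw [ES_const] at h4
      exact h4
  | succ k ih =>
    intro ℓ H hk hH
    have hk' : ℓ / 2 < 2 ^ k := by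
      rw [pow_succ] at hk
      omega
    have hP0 : 0 ≤ 1 - (1 - w) ^ k := by
      have : (1 - w) ^ k ≤ 1 := pow_le_one₀ (by linarith) (by linarith)
      linarith
    have hP1 : 1 - (1 - w) ^ k ≤ 1 := by
      have : 0 ≤ (1 - w) ^ k := pow_nonneg (by linarith) k
      linarith
    have h1 : cost p H = ES w (univ : Finset X) (fun _ => cost p H) := (ES_const _ _ _).symm
    have h2 : ∀ W : Finset X, cost p H ≤
        ES (1 - (1 - w) ^ k) univ (fun Z => hitF H (W ∪ Z)) +
          ε / 16 * (1 - (1 / 2) ^ (ℓ / 2)) +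
          ∑ t ∈ Ioc (ℓ / 2) ℓ, (((frs H W).filter fun T => T.card = t).card : ℝ) * p ^ t := by
      intro W
      have h3 := cost_step hH hp.le (ℓ / 2) W
      have h4 := ih (ℓ / 2) (fr (ℓ / 2) H W) hk' fun S hS => (mem_filter.1 hS).2
      have h5 : ES (1 - (1 - w) ^ k) univ (hitF (fr (ℓ / 2) H W)) ≤
          ES (1 - (1 - w) ^ k) univ (fun Z => hitF H (W ∪ Z)) := by
        refine ES_mono hP0 hP1 _ fun Z _ => ?_
        unfold hitF
        split_ifs with a b b
        · exact le_rfl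
        · exfalso
          apply b
          obtain ⟨T, hT, hTZ⟩ := a
          obtain ⟨S', h6, h7, _⟩ := frs_mem (mem_filter.1 hT).1
          exact ⟨S', h6, h7.trans (union_subset_union_right hTZ)⟩
        · exact zero_le_one
        · exact le_rfl
      linarith
    have h3 : ES w univ (fun W => ∑ t ∈ Ioc (ℓ / 2) ℓ,
        (((frs H W).filter fun T => T.card = t).card : ℝ) * p ^ t) ≤
        ∑ t ∈ Ioc (ℓ / 2) ℓ, (ℓ.choose t : ℝ) * (p / w) ^ t := by
      rw [ES_sum]
      refine Finset.sum_le_sum fun t _ => ?_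
      have hcm : ES w (univ : Finset X) (fun W =>
          (((frs H W).filter fun T => T.card = t).card : ℝ) * p ^ t) =
          ES w univ (fun W => p ^ t * (((frs H W).filter fun T => T.card = t).card : ℝ)) :=
        ES_congr _ _ fun W _ => mul_comm _ _
      rw [hcm, ES_mul]
      calc p ^ t * ES w univ (fun W => (((frs H W).filter fun T => T.card = t).card : ℝ))
          ≤ p ^ t * ((ℓ.choose t : ℝ) * (1 / w) ^ t) :=
            mul_le_mul_of_nonneg_left (count_big hH hw0 hw1 t) (by positivity)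
        _ = (ℓ.choose t : ℝ) * (p / w) ^ t := by
            rw [div_eq_mul_one_div p w, mul_pow]
            ring
    have h4 := err_le hε.le hε1 hr0 hr ℓ
    have h5 : ES w univ (fun W => ES (1 - (1 - w) ^ k) univ (fun Z => hitF H (W ∪ Z))) =
        ES (1 - (1 - w) ^ (k + 1)) univ (hitF H) := by
      rw [ES_union]
      congr 1
      ring
    calc cost p H = ES w (univ : Finset X) (fun _ => cost p H) := h1
      _ ≤ ES w univ (fun W => ES (1 - (1 - w) ^ k) univ (fun Z => hitF H (W ∪ Z)) +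
          ε / 16 * (1 - (1 / 2) ^ (ℓ / 2)) +
          ∑ t ∈ Ioc (ℓ / 2) ℓ, (((frs H W).filter fun T => T.card = t).card : ℝ) * p ^ t) :=
          ES_mono hw0.le hw1 _ fun W _ => h2 W
      _ = ES (1 - (1 - w) ^ (k + 1)) univ (hitF H) + ε / 16 * (1 - (1 / 2) ^ (ℓ / 2)) +
          ES w univ (fun W => ∑ t ∈ Ioc (ℓ / 2) ℓ,
            (((frs H W).filter fun T => T.card = t).card : ℝ) * p ^ t) := by
          rw [ES_add, ES_add, ES_const, h5]
      _ ≤ _ := by linarith

end Vale.Agent.P064.H825
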