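import Vale.Agent.P064.H825.Spread
import Vale.Agent.P064.H825.Defs
import Vale.Agent.P064.H444.Graph

/-!
P064 (helper825): graphs: spread of the copies, expectation thresholds, dense sets of copies.
-/

set_option linter.all false

namespace Vale.Agent.P064.H825

open SimpleGraph MeasureTheory Finset Vale.Agent.P064 Vale.Agent.P064.Multi
open scoped Pointwise

variable {n : ℕ}

theorem le_toG_iff (F : SimpleGraph (Fin n)) (Z : Finset (Pair n)) :
    F ≤ toG Z ↔ ofG F ⊆ Z := by
  constructor
  · intro h e he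
    rw [mem_ofG] at he
    rw [← toG_edge]
    exact edgeSet_mono h he
  · intro h a b hab
    have hne : a ≠ b := hab.ne
    refine ⟨hne, h ?_⟩
    rw [mem_ofG]
    exact hab

theorem card_ofG (F : SimpleGraph (Fin n)) : (ofG F).card = F.edgeSet.ncard := by
  rw [← ncard_toG, toG_ofG]

theorem toG_smul_img {W : Type*} [Finite W] (H : SimpleGraph W) (j : W ↪ Fin n)
    (g : Equiv.Perm (Fin n)) : toG (g • img H j) = H.map (j.trans g.toEmbedding) := by
  rw [smul_img]
  unfold img
  rw [toG_ofG]

theorem mem_copies_iff {W : Type*} [Finite W] (H : SimpleGraph W) (j : W ↪ Fin n)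
    (K : SimpleGraph (Fin n)) :
    K ∈ copies n H ↔ ∃ g : Equiv.Perm (Fin n), toG (g • img H j) = K := by
  constructor
  · rintro ⟨f, rfl⟩
    obtain ⟨g, hg⟩ := Equiv.Perm.exists_extending_pair j f j.injective f.injective
    refine ⟨g, ?_⟩
    rw [toG_smul_img]
    congr 1
    ext a
    exact congrArg Fin.val (hg a)
  · rintro ⟨g, rfl⟩
    exact ⟨_, toG_smul_img H j g⟩

open Classical in
theorem ncard_eq (C : Set (SimpleGraph (Fin n))) :
    C.ncard = (univ.filter fun K => K ∈ C).card := by
  rw [← Set.ncard_coe_finset]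
  congr 1
  ext K
  simp

open Classical in
theorem card_toG_mem (C : Set (SimpleGraph (Fin n))) :
    C.ncard = (univ.filter fun Z : Finset (Pair n) => toG Z ∈ C).card := by
  rw [ncard_eq]
  refine (Finset.card_bij (fun Z _ => toG Z) ?_ ?_ ?_).symm
  · intro Z hZ
    exact mem_filter.2 ⟨mem_univ _, (mem_filter.1 hZ).2⟩
  · intro Z _ Z' _ h
    exact (gEquiv n).injective h
  · intro K hK
    refine ⟨ofG K, mem_filter.2 ⟨mem_univ _, ?_⟩, toG_ofG K⟩
    rw [toG_ofG]
    exact (mem_filter.1 hK).2

open Classical in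
/-- counting permutations instead of copies -/
theorem card_perm_mem {W : Type*} [Finite W] (H : SimpleGraph W) (j : W ↪ Fin n)
    (C : Set (SimpleGraph (Fin n))) (hC : C ⊆ copies n H) :
    (univ.filter fun g : Equiv.Perm (Fin n) => toG (g • img H j) ∈ C).card =
      C.ncard * (univ.filter fun g : Equiv.Perm (Fin n) => g • img H j = img H j).card := by
  rw [card_toG_mem]
  have hmap : ∀ g ∈ (univ.filter fun g : Equiv.Perm (Fin n) => toG (g • img H j) ∈ C),
      g • img H j ∈ (univ.filter fun Z : Finset (Pair n) => toG Z ∈ C) := by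
    intro g hg
    exact mem_filter.2 ⟨mem_univ _, (mem_filter.1 hg).2⟩
  rw [Finset.card_eq_sum_card_fiberwise hmap, Finset.sum_const_nat]
  intro Z hZ
  have hZC := (mem_filter.1 hZ).2
  obtain ⟨g0, hg0⟩ := (mem_copies_iff H j _).1 (hC hZC)
  have hZt : Z ∈ Act.translates (Equiv.Perm (Fin n)) (img H j) := by
    rw [Act.mem_translates]
    exact ⟨g0, (gEquiv n).injective hg0⟩
  rw [← Act.card_fibre (Equiv.Perm (Fin n)) (img H j) Z hZt]
  congr 1
  ext g
  simp only [mem_filter, mem_univ, true_and]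
  constructor
  · rintro ⟨_, h⟩
    exact h
  · intro h
    exact ⟨by rw [h]; exact hZC, h⟩

theorem stab_pos' {W : Type*} [Finite W] (H : SimpleGraph W) (j : W ↪ Fin n) :
    (0 : ℝ) < ((univ.filter fun g : Equiv.Perm (Fin n) => g • img H j = img H j).card : ℝ) := by
  exact_mod_cast Act.stab_pos (Equiv.Perm (Fin n)) (img H j)

theorem card_all {W : Type*} [Finite W] (H : SimpleGraph W) (j : W ↪ Fin n) :
    (Fintype.card (Equiv.Perm (Fin n)) : ℝ) = ((copies n H).ncard : ℝ) *
      ((univ.filter fun g : Equiv.Perm (Fin n) => g • img H j = img H j).card : ℝ) := by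
  classical
  have h := card_perm_mem H j (copies n H) Set.Subset.rfl
  have h2 : (univ.filter fun g : Equiv.Perm (Fin n) => toG (g • img H j) ∈ copies n H) = univ := by
    rw [Finset.filter_eq_self]
    intro g _
    exact (mem_copies_iff H j _).2 ⟨g, rfl⟩
  rw [h2, Finset.card_univ] at h
  exact_mod_cast h

theorem copies_pos {W : Type*} [Finite W] (H : SimpleGraph W) (j : W ↪ Fin n) :
    (0 : ℝ) < (copies n H).ncard := by
  have h1 := card_all H j
  have h2 := stab_pos' H j
  have h3 : (0 : ℝ) < Fintype.card (Equiv.Perm (Fin n)) := by exact_mod_cast Fintype.card_pos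
  by_contra hcon
  have : ((copies n H).ncard : ℝ) = 0 := le_antisymm (not_lt.1 hcon) (Nat.cast_nonneg _)
  rw [this, zero_mul] at h1
  linarith

/-- small stabilisers -/
theorem stab_pE {W : Type*} [Fintype W] {H : SimpleGraph W} (j : W ↪ Fin n)
    (F : Finset (Pair n)) (hF : F ⊆ img H j) (hne : F.Nonempty) :
    ((univ.filter (fun g : Equiv.Perm (Fin n) => g • F = F)).card : ℝ)
        ≤ Fintype.card (Equiv.Perm (Fin n)) * (2 * pE n H) ^ F.card := by
  classical
  obtain ⟨⟨p, hpE, hp⟩, _⟩ := pE_isLeast H j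
  rw [← hpE]
  have hp0 : (0 : ℝ) ≤ p := p.2.1
  refine (stab_bound H j p hp F hF).trans ?_
  rw [mul_pow]
  have h1 : (2 : ℝ) ≤ 2 ^ F.card := by
    calc (2 : ℝ) = 2 ^ 1 := by norm_num
      _ ≤ 2 ^ F.card := pow_le_pow_right₀ (by norm_num) (Finset.card_pos.2 hne)
  have h2 : (0 : ℝ) ≤ Fintype.card (Equiv.Perm (Fin n)) * (p : ℝ) ^ F.card := by positivity
  nlinarith

/-- **the copies of `H` are spread** -/
theorem spread {W : Type*} [Fintype W] {H : SimpleGraph W} (hH : H ≠ ⊥) (j : W ↪ Fin n)
    (F : SimpleGraph (Fin n)) :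
    (({K ∈ copies n H | F ≤ K}).ncard : ℝ) ≤
      (2 ^ 60 * pE n H) ^ F.edgeSet.ncard * (copies n H).ncard := by
  classical
  have hpos := Act.pE_pos' hH j
  have h1 := Ctx.spread_const (G := Equiv.Perm (Fin n)) (img H j) (2 * pE n H) (by positivity)
    (fun F hF hne => stab_pE j F hF hne) (ofG F)
  have e : (2 : ℝ) ^ 59 * (2 * pE n H) = 2 ^ 60 * pE n H := by ring
  rw [e, card_ofG] at h1
  have h2 := card_perm_mem H j {K ∈ copies n H | F ≤ K} (fun K hK => hK.1)
  have h3 : ({K ∈ copies n H | F ≤ K}).ncard *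
      (univ.filter fun g : Equiv.Perm (Fin n) => g • img H j = img H j).card ≤
      (univ.filter fun g : Equiv.Perm (Fin n) => g • ofG F ⊆ img H j).card := by
    rw [← h2]
    refine Finset.card_le_card_of_injOn (fun g => g⁻¹) ?_ inv_injective.injOn
    intro g hg
    have hg' : toG (g • img H j) ∈ copies n H ∧ F ≤ toG (g • img H j) := by simpa using hg
    replace hg' := hg'.2
    rw [le_toG_iff] at hg'
    simp only [coe_filter, mem_univ, true_and, Set.mem_setOf_eq]
    have h4 := Finset.smul_finset_subset_smul_finset (a := g⁻¹) hg'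
    rwa [inv_smul_smul] at h4
  have h4 := card_all H j
  have h5 := stab_pos' H j
  have h6 : (({K ∈ copies n H | F ≤ K}).ncard : ℝ) *
      ((univ.filter fun g : Equiv.Perm (Fin n) => g • img H j = img H j).card : ℝ) ≤
      ((univ.filter fun g : Equiv.Perm (Fin n) => g • ofG F ⊆ img H j).card : ℝ) := by
    exact_mod_cast h3
  have h7 := h6.trans h1
  rw [h4] at h7
  refine le_of_mul_le_mul_right (h7.trans (le_of_eq ?_)) h5
  ring

theorem probMember_eq (C : Set (SimpleGraph (Fin n))) (p : unitInterval) :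
    probMember C p = ES (p : ℝ) univ (fun Z : Finset (Pair n) =>
      open Classical in if ∃ K ∈ C, K ≤ toG Z then (1 : ℝ) else 0) := by
  classical
  have h := integral_eq_ES (n := n) p (fun G => if ∃ K ∈ C, K ≤ G then (1 : ℝ) else 0)
  have h2 : probMember C p = ∫ G, (fun G => if ∃ K ∈ C, K ≤ G then (1 : ℝ) else 0) G
      ∂(binomialRandom (Fin n) p) := by
    unfold probMember
    have hm : MeasurableSet {G : SimpleGraph (Fin n) | ∃ K ∈ C, K ≤ G} :=
      Set.Finite.measurableSet (Set.toFinite _)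
    rw [← MeasureTheory.integral_indicator_one hm]
    apply integral_congr_ae
    filter_upwards with G
    simp [Set.indicator_apply]
  rw [h2, h]

theorem probMember_nonneg (C : Set (SimpleGraph (Fin n))) (p : unitInterval) :
    0 ≤ probMember C p := measureReal_nonneg

/-- **dense sets of copies are hit** -/
theorem robust {W : Type*} [Fintype W] {H : SimpleGraph W} (hH : H ≠ ⊥) (j : W ↪ Fin n)
    (C : Set (SimpleGraph (Fin n))) (hC : C ⊆ copies n H) {δ ε : ℝ} (hδ : 0 < δ) (hε : 0 < ε)
    (hδC : δ * (copies n H).ncard ≤ C.ncard) (P : unitInterval)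
    (hP : 192 * 2 ^ 60 * pE n H * Real.log (H.edgeSet.ncard + 1) / (δ * ε) ≤ P) :
    1 - ε ≤ probMember C P := by
  classical
  rcases le_or_gt ε 1 with hε1 | hε1
  swap
  · have := probMember_nonneg C P
    linarith
  have hpos := Act.pE_pos' hH j
  set A : Finset (Equiv.Perm (Fin n)) := univ.filter fun g => toG (g • img H j) ∈ C with hA
  have hAc : (A.card : ℝ) = C.ncard *
      ((univ.filter fun g : Equiv.Perm (Fin n) => g • img H j = img H j).card : ℝ) := by
    exact_mod_cast card_perm_mem H j C hC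
  have h5 := stab_pos' H j
  have hδA : δ * Fintype.card (Equiv.Perm (Fin n)) ≤ A.card := by
    rw [hAc, card_all H j, ← mul_assoc]
    exact mul_le_mul_of_nonneg_right hδC h5.le
  have h := dense_hit (G := Equiv.Perm (Fin n)) (img H j) (Act.img_nonempty hH j) (2 * pE n H)
    (by positivity) (fun F hF hne => stab_pE j F hF hne) A hδ hδA hε hε1 (P := P) ?_ P.2.2
  · refine h.trans ?_
    rw [probMember_eq]
    apply ES_mono P.2.1 P.2.2
    intro Z _
    unfold hit
    split_ifs with h1 h2 h2
    · exact le_rfl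
    · exfalso
      apply h2
      obtain ⟨g, hg, hgZ⟩ := h1
      refine ⟨_, (mem_filter.1 hg).2, ?_⟩
      rw [le_toG_iff, ofG_toG]
      exact hgZ
    · exact zero_le_one
    · exact le_rfl
  · rw [card_img]
    refine le_trans (le_of_eq ?_) hP
    ring

/-! ### expectation thresholds -/

theorem copies_subset_containing {W : Type*} [Fintype W] (H : SimpleGraph W) :
    copies n H ⊆ containing n H := by
  rintro K ⟨f, rfl⟩
  change 0 < (H.map f).copyCount H
  rw [copyCount_pos]
  exact ⟨⟨⟨f, fun {a b} h => (SimpleGraph.map_adj f H _ _).2 ⟨a, b, h, rfl, rfl⟩⟩, f.injective⟩⟩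

theorem frac_nonneg (F : Set (SimpleGraph (Fin n))) : 0 ≤ fracExpThreshold F :=
  Real.sSup_nonneg fun x hx => hx.1

theorem exp_nonneg (F : Set (SimpleGraph (Fin n))) : 0 ≤ expThreshold F :=
  Real.sSup_nonneg fun x hx => hx.1

theorem exp_le_frac (F : Set (SimpleGraph (Fin n))) : expThreshold F ≤ fracExpThreshold F := by
  classical
  refine Real.sSup_le (fun q hq => ?_) (frac_nonneg F)
  obtain ⟨h0, h1, U, hU, hs⟩ := hq
  refine le_csSup ⟨1, fun x hx => hx.2.1⟩ ⟨h0, h1, fun S => if S ∈ U then 1 else 0, ?_, ?_, ?_⟩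
  · intro S
    dsimp only
    split_ifs <;> norm_num
  · intro K hK
    obtain ⟨S, hS, hSK⟩ := hU K hK
    have h2 : (if S ≤ K then (if S ∈ U then (1 : ℝ) else 0) else 0) = 1 := by
      rw [if_pos hSK, if_pos hS]
    refine le_trans h2.ge ?_
    refine Finset.single_le_sum (f := fun S => if S ≤ K then (if S ∈ U then (1 : ℝ) else 0) else 0)
      (fun S _ => ?_) (mem_univ S)
    split_ifs <;> norm_num
  · refine le_trans (le_of_eq ?_) hs
    simp only [ite_mul, one_mul, zero_mul]
    rw [← Finset.sum_filter]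
    congr 1
    ext S
    simp

theorem frac_le {W : Type*} [Fintype W] {H : SimpleGraph W} (hH : H ≠ ⊥) (j : W ↪ Fin n) :
    fracExpThreshold (containing n H) ≤ 2 ^ 60 * pE n H := by
  classical
  have hpos := Act.pE_pos' hH j
  refine Real.sSup_le (fun q hq => ?_) (by positivity)
  obtain ⟨h0, h1, w, hw, hcov, hs⟩ := hq
  by_contra hcon
  rw [not_le] at hcon
  have hN := copies_pos H j
  have h2 : ((copies n H).ncard : ℝ) ≤
      ∑ K ∈ univ.filter (fun K => K ∈ copies n H), ∑ S, if S ≤ K then w S else 0 := by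
    rw [ncard_eq, Finset.card_eq_sum_ones]
    push_cast
    refine Finset.sum_le_sum fun K hK => ?_
    exact hcov K (copies_subset_containing H (mem_filter.1 hK).2)
  rw [Finset.sum_comm] at h2
  have h3 : ∀ S : SimpleGraph (Fin n),
      ∑ K ∈ univ.filter (fun K => K ∈ copies n H), (if S ≤ K then w S else 0) ≤
        (w S * q ^ S.edgeSet.ncard) * (copies n H).ncard := by
    intro S
    have h4 := spread hH j S
    have h5 : ∑ K ∈ univ.filter (fun K => K ∈ copies n H), (if S ≤ K then w S else 0) =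
        w S * (({K ∈ copies n H | S ≤ K}).ncard : ℝ) := by
      rw [← Finset.sum_filter, Finset.sum_const, nsmul_eq_mul, mul_comm, ncard_eq,
        Finset.filter_filter]
      congr 2
      exact congrArg Finset.card (by ext K; simp)
    rw [h5, mul_assoc]
    refine mul_le_mul_of_nonneg_left (h4.trans ?_) (hw S)
    exact mul_le_mul_of_nonneg_right (pow_le_pow_left₀ (by positivity) hcon.le _) hN.le
  have h6 : ((copies n H).ncard : ℝ) ≤
      (∑ S, w S * q ^ S.edgeSet.ncard) * (copies n H).ncard := by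
    rw [Finset.sum_mul]
    exact h2.trans (Finset.sum_le_sum fun S _ => h3 S)
  nlinarith

/-- there are at most `E N(F)` copies weighted by `q ^ e(F)` -/
theorem image_le {V : Type*} [Fintype V] (A : SimpleGraph V) (q : unitInterval) :
    open Classical in
    ∑ S ∈ univ.image (fun f : V ↪ Fin n => A.map f), (q : ℝ) ^ S.edgeSet.ncard ≤
      expCopy n A q := by
  classical
  set U := univ.image (fun f : V ↪ Fin n => A.map f) with hU
  have h1 : ∀ S ∈ U, (q : ℝ) ^ S.edgeSet.ncard = (q : ℝ) ^ A.edgeSet.ncard := by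
    intro S hS
    obtain ⟨f, _, rfl⟩ := mem_image.1 hS
    rw [edgeSet_map, Set.ncard_image_of_injective _ f.sym2Map.injective]
  rw [Finset.sum_congr rfl h1, Finset.sum_const, nsmul_eq_mul]
  have h2 := expCopy_mul n A q
  have hfin : Finite (A ≃g A) := Finite.of_injective (fun σ => (σ : V → V))
    (fun σ τ h => RelIso.coe_fn_injective h)
  have hAut : (0 : ℝ) < Nat.card (A ≃g A) := by
    have : Nonempty (A ≃g A) := ⟨RelIso.refl _⟩
    exact_mod_cast Nat.card_pos
  have h3 : U.card * Nat.card (A ≃g A) ≤ Fintype.card (V ↪ Fin n) := by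
    rw [← Finset.card_univ (α := V ↪ Fin n),
      Finset.card_eq_sum_card_fiberwise (f := fun f : V ↪ Fin n => A.map f) (t := U)
        (fun f _ => mem_coe.2 (mem_image_of_mem _ (mem_univ _)))]
    rw [← smul_eq_mul, ← Finset.sum_const]
    refine Finset.sum_le_sum fun S hS => ?_
    obtain ⟨f, _, rfl⟩ := mem_image.1 hS
    have : Fintype (A ≃g A) := Fintype.ofFinite _
    rw [Nat.card_eq_fintype_card, ← Finset.card_univ]
    refine Finset.card_le_card_of_injOn
      (fun σ : A ≃g A => σ.toEquiv.toEmbedding.trans f) ?_ ?_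
    · intro σ _
      refine mem_coe.2 (mem_filter.2 ⟨mem_univ _, ?_⟩)
      ext x y
      simp only [SimpleGraph.map_adj]
      constructor
      · rintro ⟨a, b, hab, rfl, rfl⟩
        exact ⟨σ a, σ b, σ.map_adj_iff.2 hab, rfl, rfl⟩
      · rintro ⟨a, b, hab, rfl, rfl⟩
        refine ⟨σ.symm a, σ.symm b, σ.symm.map_adj_iff.2 hab, ?_, ?_⟩
        · change f (σ (σ.symm a)) = f a
          rw [RelIso.apply_symm_apply]
        · change f (σ (σ.symm b)) = f b
          rw [RelIso.apply_symm_apply]
    · intro σ _ τ _ h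
      apply RelIso.coe_fn_injective
      funext a
      have := congrArg (fun g : V ↪ Fin n => g a) h
      exact f.injective this
  have h4 : (U.card : ℝ) * Nat.card (A ≃g A) ≤ Fintype.card (V ↪ Fin n) := by exact_mod_cast h3
  have h5 : (0 : ℝ) ≤ (q : ℝ) ^ A.edgeSet.ncard := pow_nonneg q.2.1 _
  refine le_of_mul_le_mul_right ?_ hAut
  rw [h2]
  calc (U.card : ℝ) * (q : ℝ) ^ A.edgeSet.ncard * Nat.card (A ≃g A)
      = (U.card * Nat.card (A ≃g A)) * (q : ℝ) ^ A.edgeSet.ncard := by ring
    _ ≤ _ := mul_le_mul_of_nonneg_right h4 h5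

theorem pE_le_exp {W : Type*} [Fintype W] (H : SimpleGraph W) (j : W ↪ Fin n) :
    pE n H ≤ expThreshold (containing n H) := by
  classical
  by_contra hcon
  rw [not_le] at hcon
  have h0 := exp_nonneg (containing n H)
  have h1 : pE n H ≤ 1 := by
    obtain ⟨⟨p, hpE, _⟩, _⟩ := pE_isLeast H j
    rw [← hpE]
    exact p.2.2
  set q : ℝ := (expThreshold (containing n H) + pE n H) / 2 with hq
  have hq0 : 0 ≤ q := by rw [hq]; linarith
  have hq1 : q ≤ 1 := by rw [hq]; linarith
  have hqlt : q < pE n H := by rw [hq]; linarith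
  have hqgt : expThreshold (containing n H) < q := by rw [hq]; linarith
  have h2 : ¬ ∀ F : H.Subgraph, 1 / 2 ≤ expCopy n F.coe ⟨q, hq0, hq1⟩ := by
    intro h
    have := (pE_isLeast H j).2 ⟨⟨q, hq0, hq1⟩, rfl, h⟩
    linarith
  push Not at h2
  obtain ⟨F, hF⟩ := h2
  have : Fintype F.verts := Fintype.ofFinite _
  have h3 := image_le (n := n) F.coe ⟨q, hq0, hq1⟩
  have h4 : q ≤ expThreshold (containing n H) := by
    refine le_csSup ⟨1, fun x hx => hx.2.1⟩ ⟨hq0, hq1, _, ?_, h3.trans hF.le⟩
    intro K hK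
    have hK' : 0 < K.copyCount H := hK
    rw [copyCount_pos] at hK'
    obtain ⟨c⟩ := hK'
    refine ⟨F.coe.map ((Function.Embedding.subtype _).trans c.toEmbedding),
      mem_image_of_mem _ (mem_univ _), ?_⟩
    rw [SimpleGraph.map_le_iff_le_comap]
    intro a b hab
    exact c.toHom.map_adj (F.adj_sub hab)
  linarith

end Vale.Agent.P064.H825
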