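import Vale.Agent.P064.H825.Frag
import Vale.Agent.P064.H444.Act

/-!
P064 (helper825): hitting a spread family; hitting a dense set of translates.
-/

set_option linter.all false

namespace Vale.Agent.P064.H825

open Finset Vale.Agent.P064 Vale.Agent.P064.Multi
open scoped Pointwise

variable {X : Type*} [Fintype X] [DecidableEq X]

theorem size_le_log {ℓ : ℕ} (h : 1 ≤ ℓ) : (Nat.size ℓ : ℝ) ≤ 3 * Real.log (ℓ + 1) := by
  have h1 : 2 ^ (Nat.size ℓ - 1) ≤ ℓ := by
    have h2 : Nat.size ℓ - 1 < Nat.size ℓ := by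
      have : 0 < Nat.size ℓ := Nat.size_pos.2 h
      omega
    exact Nat.lt_size.1 h2
  have h3 : 0 < Nat.size ℓ := Nat.size_pos.2 h
  have h4 : ((2 : ℝ) ^ (Nat.size ℓ - 1)) ≤ ℓ := by exact_mod_cast h1
  have hℓ : (1 : ℝ) ≤ ℓ := by exact_mod_cast h
  have h5 : ((Nat.size ℓ - 1 : ℕ) : ℝ) * Real.log 2 ≤ Real.log (ℓ + 1) := by
    rw [← Real.log_pow]
    exact Real.log_le_log (by positivity) (by linarith)
  have h6 : Real.log 2 ≤ Real.log (ℓ + 1) := Real.log_le_log (by norm_num) (by linarith)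
  have h7 : ((Nat.size ℓ - 1 : ℕ) : ℝ) = (Nat.size ℓ : ℝ) - 1 := by
    rw [Nat.cast_sub (by omega)]
    simp
  rw [h7] at h5
  have h8 : (Nat.size ℓ : ℝ) * Real.log 2 ≤ 2 * Real.log (ℓ + 1) := by nlinarith
  have h9 : 0.6931471803 < Real.log 2 := Real.log_two_gt_d9
  have h10 : (0 : ℝ) ≤ Nat.size ℓ := Nat.cast_nonneg _
  nlinarith

/-- **spread families are hit** -/
theorem spread_hit {ι : Type*} [DecidableEq ι] (A : Finset ι) (hA : A.Nonempty)
    (T : ι → Finset X) {ℓ : ℕ} (hℓ : 1 ≤ ℓ) (hT : ∀ i ∈ A, (T i).card ≤ ℓ) {p ε P : ℝ}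
    (hp : 0 < p) (hε : 0 < ε) (hε1 : ε ≤ 1)
    (hsp : ∀ F : Finset X, ((A.filter fun i => F ⊆ T i).card : ℝ) ≤ A.card * p ^ F.card)
    (hP : 192 * p * Real.log (ℓ + 1) / ε ≤ P) (hP1 : P ≤ 1) :
    1 - ε ≤ ES P univ (hit A T) := by
  classical
  set k := Nat.size ℓ with hk
  have hk0 : 0 < k := Nat.size_pos.2 hℓ
  have hkl : (k : ℝ) ≤ 3 * Real.log (ℓ + 1) := size_le_log hℓ
  set w := 64 * p / ε with hw
  have hw0 : 0 < w := by positivity
  have hkw : (k : ℝ) * w ≤ P := by
    refine le_trans ?_ hP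
    calc (k : ℝ) * w ≤ (3 * Real.log (ℓ + 1)) * w := mul_le_mul_of_nonneg_right hkl hw0.le
      _ = 192 * p * Real.log (ℓ + 1) / ε := by rw [hw]; ring
  have hw1 : w ≤ 1 := by
    have h1 : (1 : ℝ) ≤ k := by exact_mod_cast hk0
    nlinarith
  set H : Finset (Finset X) := A.image T with hH
  have hHc : ∀ S ∈ H, S.card ≤ ℓ := by
    intro S hS
    obtain ⟨i, hi, rfl⟩ := mem_image.1 hS
    exact hT i hi
  have hpw : 64 * p ≤ ε * w := by
    rw [hw]
    field_simp
    exact le_rfl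
  have hit1 := iter hp hε hε1 hpw hw1 k ℓ H (Nat.lt_size_self ℓ) hHc
  have hcost : 1 ≤ cost p H := by
    refine le_cost fun G hG => ?_
    have h1 : (A.card : ℝ) ≤ ∑ F ∈ G, ((A.filter fun i => F ⊆ T i).card : ℝ) := by
      have h2 : A.card ≤ ∑ F ∈ G, (A.filter fun i => F ⊆ T i).card := by
        refine le_trans (card_le_card (t := G.biUnion fun F => A.filter fun i => F ⊆ T i) ?_)
          card_biUnion_le
        intro i hi
        obtain ⟨F, hF, hFT⟩ := hG (T i) (mem_image_of_mem _ hi)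
        exact mem_biUnion.2 ⟨F, hF, mem_filter.2 ⟨hi, hFT⟩⟩
      exact_mod_cast h2
    have h2 : (A.card : ℝ) ≤ A.card * ∑ F ∈ G, p ^ F.card := by
      rw [Finset.mul_sum]
      exact h1.trans (Finset.sum_le_sum fun F _ => hsp F)
    have h3 : (0 : ℝ) < A.card := by exact_mod_cast card_pos.2 hA
    by_contra hcon
    nlinarith [not_le.1 hcon]
  have hP0 : 0 ≤ 1 - (1 - w) ^ k := by
    have : (1 - w) ^ k ≤ 1 := pow_le_one₀ (by linarith) (by linarith)
    linarith
  have hPP : 1 - (1 - w) ^ k ≤ P := by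
    have h1 := one_add_mul_le_pow (a := -w) (by linarith) k
    have h2 : (1 + -w) ^ k = (1 - w) ^ k := by ring_nf
    rw [h2] at h1
    linarith
  have hmono := ES_mono_p hP0 hPP hP1 (univ : Finset X) (hitF_mono H)
  have heq : ES P univ (hitF H) ≤ ES P univ (hit A T) := by
    refine ES_mono (hP0.trans hPP) hP1 _ fun W _ => ?_
    unfold hitF hit
    split_ifs with a b b
    · exact le_rfl
    · exfalso
      apply b
      obtain ⟨S, hS, hSW⟩ := a
      obtain ⟨i, hi, rfl⟩ := mem_image.1 hS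
      exact ⟨i, hi, hSW⟩
    · exact zero_le_one
    · exact le_rfl
  have h5 : ε / 16 * (1 - (1 / 2 : ℝ) ^ ℓ) ≤ ε := by
    have h6 : (0 : ℝ) ≤ (1 / 2) ^ ℓ := by positivity
    nlinarith
  linarith

/-- **dense sets of translates are hit** -/
theorem dense_hit {G : Type*} [Group G] [Fintype G] [DecidableEq G] [MulAction G X]
    (H : Finset X) (hH : H.Nonempty) (q : ℝ) (hq0 : 0 < q)
    (hq : ∀ F ⊆ H, F.Nonempty → ((univ.filter fun g : G => g • F = F).card : ℝ) ≤
      Fintype.card G * q ^ F.card)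
    (A : Finset G) {δ ε P : ℝ} (hδ : 0 < δ) (hδA : δ * Fintype.card G ≤ A.card)
    (hε : 0 < ε) (hε1 : ε ≤ 1)
    (hP : 192 * (2 ^ 59 * q) * Real.log (H.card + 1) / (δ * ε) ≤ P) (hP1 : P ≤ 1) :
    1 - ε ≤ ES P univ (hit A (fun g => g • H)) := by
  classical
  have hG0 : (0 : ℝ) < Fintype.card G := by exact_mod_cast Fintype.card_pos
  have hA0 : (0 : ℝ) < A.card := lt_of_lt_of_le (by positivity) hδA
  have hA : A.Nonempty := by
    rw [← card_pos]
    exact_mod_cast hA0
  have hδ1 : δ ≤ 1 := by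
    have h1 : (A.card : ℝ) ≤ Fintype.card G := by
      exact_mod_cast card_le_univ A
    by_contra hcon
    nlinarith [not_le.1 hcon]
  have hp : 0 < 2 ^ 59 * q / δ := by positivity
  refine spread_hit A hA (fun g => g • H) (card_pos.2 hH) (fun g _ => ?_) hp hε hε1 ?_ ?_ hP1
  · rw [Finset.card_smul_finset]
  · intro F
    rcases F.eq_empty_or_nonempty with hF | hF
    · subst hF
      simp
    have h1 := Ctx.spread_const (G := G) H q hq0 hq F
    have h2 : ((A.filter fun g => F ⊆ g • H).card : ℝ) ≤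
        ((univ.filter fun g : G => g • F ⊆ H).card : ℝ) := by
      have h3 : (A.filter fun g => F ⊆ g • H).card ≤ (univ.filter fun g : G => g • F ⊆ H).card := by
        refine Finset.card_le_card_of_injOn (fun g => g⁻¹) ?_ inv_injective.injOn
        intro g hg
        have hg' := (mem_filter.1 (mem_coe.1 hg)).2
        simp only [coe_filter, mem_univ, true_and, Set.mem_setOf_eq]
        have h4 := Finset.smul_finset_subset_smul_finset (a := g⁻¹) hg'
        rwa [inv_smul_smul] at h4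
      exact_mod_cast h3
    have h5 : (1 : ℝ) ≤ (1 / δ) ^ (F.card - 1) := one_le_pow₀ (by rw [le_div_iff₀ hδ]; linarith)
    have h6 : (2 ^ 59 * q / δ) ^ F.card = (2 ^ 59 * q) ^ F.card * (1 / δ) ^ (F.card - 1) * (1 / δ) := by
      rw [div_eq_mul_one_div, mul_pow, mul_assoc]
      congr 1
      rw [← pow_succ]
      congr 1
      have := card_pos.2 hF
      omega
    have h7 : (0 : ℝ) ≤ (2 ^ 59 * q) ^ F.card := by positivity
    calc ((A.filter fun g => F ⊆ g • H).card : ℝ)
        ≤ Fintype.card G * (2 ^ 59 * q) ^ F.card := h2.trans h1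
      _ ≤ (A.card * (1 / δ)) * (2 ^ 59 * q) ^ F.card := by
          refine mul_le_mul_of_nonneg_right ?_ h7
          rw [mul_one_div, le_div_iff₀ hδ]
          linarith
      _ ≤ (A.card * (1 / δ)) * (2 ^ 59 * q) ^ F.card * (1 / δ) ^ (F.card - 1) :=
          le_mul_of_one_le_right (by positivity) h5
      _ = A.card * (2 ^ 59 * q / δ) ^ F.card := by rw [h6]; ring
  · refine le_trans (le_of_eq ?_) hP
    field_simp

end Vale.Agent.P064.H825
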